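import Vale.Agent.P327T.Deg

/-!
# Rigidity of the Turing degrees, with reducibility defined by oracle Turing machines (P327)
-/

namespace Vale.Agent.Results.P327.AOracleMachine

open Vale.Agent.P327T

/-- Turing reducibility `TRed` is defined by oracle Turing machines. (1) Every automorphism of the
Turing degrees is the identity. (2) Every isomorphism between two upward closed sets of Turing
degrees is the identity. (3) `TRed` is a preorder, and the order of the degrees can be read off
from any representatives. (4) `TRed` coincides with relative recursiveness of the characteristic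
functions. -/
theorem result :
    (∀ π : Degree → Degree, Function.Bijective π → (∀ a b, DLe a b ↔ DLe (π a) (π b)) →
      ∀ a, π a = a) ∧
    (∀ U V : Set Degree, (∀ a ∈ U, ∀ b, DLe a b → b ∈ U) → (∀ a ∈ V, ∀ b, DLe a b → b ∈ V) →
      ∀ e : U → V, Function.Bijective e → (∀ x y : U, DLe x y ↔ DLe (e x) (e y)) →
        U = V ∧ ∀ x : U, (e x : Degree) = x) ∧
    ((∀ A, TRed A A) ∧ (∀ A B C, TRed A B → TRed B C → TRed A C) ∧
      ∀ (a b : Degree), ∀ A ∈ a.1, ∀ B ∈ b.1, (DLe a b ↔ TRed A B)) ∧
    (∀ A B : Set ℕ, TRed A B ↔
      TuringReducible (fun n => Part.some (chi A n)) (fun n => Part.some (chi B n))) :=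
  ⟨rigid, fun _ _ hU hV => final_rigid hU hV,
    ⟨tred_refl, fun _ _ _ => tred_trans, fun _ _ _ hA _ hB => dle_iff hA hB⟩, fun _ _ => tred_iff⟩

end Vale.Agent.Results.P327.AOracleMachine
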